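import Mathlib

namespace Vale.Agent.P057

open Finset Filter Real

lemma ev_lin_exp (a b c ε : ℝ) (hε : 0 < ε) :
    ∀ᶠ s : ℝ in atTop, (a * s + b) * exp (c - ε * s) ≤ 1 := by
  have h1 : Tendsto (fun s : ℝ => (a * s + b) * exp (c - ε * s)) atTop (nhds 0) := by
    have t1 : Tendsto (fun s : ℝ => ε * s) atTop atTop := tendsto_id.const_mul_atTop hε
    have t2 := (tendsto_pow_mul_exp_neg_atTop_nhds_zero 1).comp t1
    have t3 := tendsto_exp_neg_atTop_nhds_zero.comp t1
    have := (t2.const_mul (a / ε * exp c)).add (t3.const_mul (b * exp c))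
    simp only [mul_zero, add_zero] at this
    refine this.congr fun s => ?_
    simp only [Function.comp, pow_one, sub_eq_add_neg, exp_add]
    field_simp
  exact h1.eventually (ge_mem_nhds (by norm_num : (0 : ℝ) < 1))

lemma ev_quad (ρ T : ℝ) (hρ : 0 < ρ) : ∀ᶠ s : ℝ in atTop, T ≤ s ^ 2 / (ρ * s + 1) := by
  filter_upwards [eventually_ge_atTop 1, eventually_ge_atTop (|T| * (ρ + 1))] with s h1 h2
  have hp : 0 < ρ * s + 1 := by positivity
  rw [le_div_iff₀ hp]
  have : T ≤ |T| := le_abs_self T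
  have h0 : 0 ≤ |T| := abs_nonneg T
  calc T * (ρ * s + 1) ≤ |T| * (ρ * s + 1) := by gcongr
    _ ≤ |T| * (ρ * s + s) := by gcongr
    _ = (|T| * (ρ + 1)) * s := by ring
    _ ≤ s * s := by gcongr
    _ = s ^ 2 := by ring

set_option maxHeartbeats 1000000 in
theorem asym (q : ℕ) (hq : 0 < q) (δ K : ℝ) (hδ0 : 0 < δ) (hδ1 : δ < 1) (hK : 0 ≤ K)
    (P : Finset ℕ → Prop)
    (hP : ∀ M n : ℕ, 0 < M → ∃ A : Finset ℕ, A ⊆ range ((q * M) ^ n) ∧ P A ∧
      (δ * (q * M)) ^ n ≤ (K * n * (q * M : ℝ) ^ 2 + 1) * A.card)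
    (C : ℝ) (hC : 2 * √(2 * log (1 / δ)) < C) :
    ∀ᶠ N : ℕ in atTop, ∃ A : Finset ℕ, A ⊆ range N ∧ P A ∧
      (N : ℝ) * exp (-C * √(log N)) ≤ A.card := by
  set L := log (1 / δ) with hL
  have hL0 : 0 < L := log_pos (by rw [one_lt_div hδ0]; exact hδ1)
  have hδ : δ = exp (-L) := by rw [hL, exp_neg, exp_log (by positivity)]; simp
  set w := √(2 * L) with hw
  have hw0 : 0 < w := sqrt_pos.mpr (by positivity)
  have hw2 : w ^ 2 = 2 * L := sq_sqrt (by positivity)
  set ρ := w / L with hρ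
  have hρ0 : 0 < ρ := by positivity
  set ε := (C - 2 * w) / 2 with hε
  have hε0 : 0 < ε := by rw [hε]; linarith
  set η := ε / ρ with hη
  have hη0 : 0 < η := by positivity
  have h1e : 0 < 1 - exp (-η) := by
    have : exp (-η) < 1 := exp_lt_one_iff.mpr (by linarith)
    linarith
  have hqr : (0 : ℝ) < q := by exact_mod_cast hq
  have ts : Tendsto (fun N : ℕ => √(log N)) atTop atTop :=
    tendsto_sqrt_atTop.comp (tendsto_log_atTop.comp tendsto_natCast_atTop_atTop)
  filter_upwards [ts.eventually (ev_lin_exp (K * ρ) (K + 1) (L + η) ε hε0),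
    ts.eventually (ev_quad ρ (log (q / (1 - exp (-η)))) hρ0),
    ts.eventually (eventually_ge_atTop 1), eventually_ge_atTop 1] with N e1 e2 e3 hN
  set s := √(log N) with hs
  have hNr : (0 : ℝ) < N := by exact_mod_cast hN
  have hlog : 0 ≤ log (N : ℝ) := log_nonneg (by exact_mod_cast hN)
  have hs2 : s ^ 2 = log N := sq_sqrt hlog
  set n := ⌈ρ * s⌉₊ with hn
  have hn1 : ρ * s ≤ n := Nat.le_ceil _
  have hn2 : (n : ℝ) < ρ * s + 1 := Nat.ceil_lt_add_one (by positivity)
  have hn0 : (0 : ℝ) < n := lt_of_lt_of_le (by positivity) hn1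
  set R := exp (s ^ 2 / n) with hR
  have hR0 : 0 < R := exp_pos _
  have hRn : R ^ n = N := by
    rw [hR, ← exp_nat_mul, mul_div_cancel₀ _ hn0.ne', hs2, exp_log hNr]
  have hRq : q ≤ R * (1 - exp (-η)) := by
    have a1 : s ^ 2 / (ρ * s + 1) ≤ s ^ 2 / n := by gcongr
    have a2 : q / (1 - exp (-η)) ≤ R := by
      rw [hR, ← log_le_iff_le_exp (by positivity)]; linarith
    rwa [div_le_iff₀ h1e] at a2
  set M := ⌊R / q⌋₊ with hM
  have hM1 : (M : ℝ) ≤ R / q := Nat.floor_le (by positivity)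
  have hM2 : R / q < M + 1 := Nat.lt_floor_add_one _
  have hb1 : (q * M : ℝ) ≤ R := by rwa [le_div_iff₀ hqr, mul_comm] at hM1
  have hb2 : R * exp (-η) ≤ q * M := by
    rw [div_lt_iff₀ hqr] at hM2; nlinarith
  have hb0 : (0 : ℝ) < q * M := lt_of_lt_of_le (by positivity) hb2
  have hM0 : 0 < M := by
    have : (0 : ℝ) < M := by
      by_contra h; push Not at h; nlinarith
    exact_mod_cast this
  obtain ⟨A, hA, hPA, hc⟩ := hP M n hM0
  refine ⟨A, hA.trans (range_subset_range.mpr ?_), hPA, ?_⟩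
  · have : (((q * M) ^ n : ℕ) : ℝ) ≤ N := by
      push_cast; rw [← hRn]; gcongr
    exact_mod_cast this
  · have hR1 : 1 ≤ R := one_le_exp (by positivity)
    have hD : K * n * (q * M : ℝ) ^ 2 + 1 ≤ (K * ρ * s + (K + 1)) * exp (w * s) := by
      have b1 : R ^ 2 ≤ exp (w * s) := by
        rw [hR, ← exp_nat_mul]
        apply exp_le_exp.mpr
        have : s ^ 2 / n ≤ s ^ 2 / (ρ * s) := by gcongr
        have e : s ^ 2 / (ρ * s) = w * s / 2 := by
          have hs0 : 0 < s := by linarith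
          rw [hρ, div_eq_iff (by positivity)]
          have : w * s / 2 * (w / L * s) = w ^ 2 / (2 * L) * s ^ 2 := by ring
          rw [this, hw2, div_self (by positivity), one_mul]
        push_cast; linarith
      have b2 : (q * M : ℝ) ^ 2 ≤ R ^ 2 := by gcongr
      have b3 : 1 ≤ R ^ 2 := one_le_pow₀ hR1
      calc K * n * (q * M : ℝ) ^ 2 + 1 ≤ K * (ρ * s + 1) * exp (w * s) + exp (w * s) := by
            gcongr <;> linarith
        _ = _ := by ring
    have hlow : (N : ℝ) * exp (-(L + η) * (ρ * s + 1)) ≤ (δ * (q * M)) ^ n := by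
      calc (N : ℝ) * exp (-(L + η) * (ρ * s + 1)) ≤ N * exp (-(L + η) * n) := by
            apply mul_le_mul_of_nonneg_left _ hNr.le
            apply exp_le_exp.mpr
            have := mul_le_mul_of_nonneg_left hn2.le (by positivity : 0 ≤ L + η)
            linarith
        _ = (δ * (R * exp (-η))) ^ n := by
            rw [mul_pow, mul_pow, hRn, hδ, ← exp_nat_mul, ← exp_nat_mul, mul_left_comm, ← exp_add]
            congr 2; ring
        _ ≤ _ := by gcongr
    have hpos : 0 < (K * ρ * s + (K + 1)) * exp (w * s) := by positivity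
    have hA0 : (0 : ℝ) ≤ A.card := Nat.cast_nonneg _
    have main : (N : ℝ) * exp (-C * s) * ((K * ρ * s + (K + 1)) * exp (w * s)) ≤
        N * exp (-(L + η) * (ρ * s + 1)) := by
      have id1 : -C * s + w * s = (L + η - ε * s) + (-(L + η) * (ρ * s + 1)) := by
        have i1 : L * ρ = w := by rw [hρ]; field_simp
        have i2 : η * ρ = ε := by rw [hη]; field_simp
        have i3 : C = 2 * w + 2 * ε := by rw [hε]; ring
        have : (L + η) * (ρ * s + 1) = (L * ρ + η * ρ) * s + (L + η) := by ring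
        rw [neg_mul (L + η), this, i1, i2, i3]; ring
      calc (N : ℝ) * exp (-C * s) * ((K * ρ * s + (K + 1)) * exp (w * s))
          = N * ((K * ρ * s + (K + 1)) * exp (-C * s + w * s)) := by rw [exp_add]; ring
        _ = N * (((K * ρ * s + (K + 1)) * exp (L + η - ε * s)) * exp (-(L + η) * (ρ * s + 1))) := by
            rw [id1, exp_add]; ring
        _ ≤ N * (1 * exp (-(L + η) * (ρ * s + 1))) :=
            mul_le_mul_of_nonneg_left (mul_le_mul_of_nonneg_right e1 (exp_pos _).le) hNr.le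
        _ = _ := by ring
    have : (N : ℝ) * exp (-C * s) * ((K * ρ * s + (K + 1)) * exp (w * s)) ≤
        A.card * ((K * ρ * s + (K + 1)) * exp (w * s)) := by
      calc _ ≤ _ := main
        _ ≤ _ := hlow
        _ ≤ _ := hc
        _ ≤ ((K * ρ * s + (K + 1)) * exp (w * s)) * A.card := mul_le_mul_of_nonneg_right hD hA0
        _ = _ := by ring
    exact le_of_mul_le_mul_right this hpos

end Vale.Agent.P057
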