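import Mathlib

namespace Vale.Agent.P057

open Finset

/-- the building block in the circle, as a subset of the unit interval -/
def inS (z : ℝ) : Prop := (0 ≤ z ∧ z < 1/3) ∨ (5/9 ≤ z ∧ z < 7/9)

noncomputable def fB (z : ℝ) : ℝ := if z < 1/3 then (z - 1/6)^2 else (z - 2/3)^2 + 1

lemma fB_nonneg (z : ℝ) : 0 ≤ fB z := by
  unfold fB; split_ifs <;> positivity

lemma fB_le {z : ℝ} (h : inS z) : fB z ≤ 2 := by
  unfold fB
  rcases h with ⟨h1, h2⟩ | ⟨h1, h2⟩
  · rw [if_pos h2]; nlinarith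
  · rw [if_neg (by linarith)]; nlinarith

lemma fB_I {z : ℝ} (h : z < 1/3) : fB z = (z - 1/6)^2 := by unfold fB; rw [if_pos h]
lemma fB_J {z : ℝ} (h : 5/9 ≤ z) : fB z = (z - 2/3)^2 + 1 := by
  unfold fB; rw [if_neg (by linarith)]

lemma int_cases {u : ℤ} (h1 : (-2 : ℝ) < u) (h2 : (u : ℝ) < 2) :
    (u : ℝ) = -1 ∨ (u : ℝ) = 0 ∨ (u : ℝ) = 1 := by
  have a : -2 < u := by exact_mod_cast h1
  have b : u < 2 := by exact_mod_cast h2
  have : u = -1 ∨ u = 0 ∨ u = 1 := by omega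
  rcases this with h | h | h <;> simp [h]

set_option maxHeartbeats 2000000 in
lemma key4 {z0 z1 z2 z3 : ℝ} (h0 : inS z0) (h1 : inS z1) (h2 : inS z2) (h3 : inS z3)
    (u v : ℤ) (hu : z0 - 2 * z1 + z2 = u) (hv : z1 - 2 * z2 + z3 = v) :
    ∃ e : ℤ, (2 * (z1 - z0) - e)^2 ≤ fB z0 + fB z3 - fB z1 - fB z2 := by
  have hu' := @int_cases u
    (by rcases h0 with h0 | h0 <;> rcases h1 with h1 | h1 <;> rcases h2 with h2 | h2 <;>
          linarith [h0.1, h0.2, h1.1, h1.2, h2.1, h2.2])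
    (by rcases h0 with h0 | h0 <;> rcases h1 with h1 | h1 <;> rcases h2 with h2 | h2 <;>
          linarith [h0.1, h0.2, h1.1, h1.2, h2.1, h2.2])
  have hv' := @int_cases v
    (by rcases h3 with h3 | h3 <;> rcases h1 with h1 | h1 <;> rcases h2 with h2 | h2 <;>
          linarith [h3.1, h3.2, h1.1, h1.2, h2.1, h2.2])
    (by rcases h3 with h3 | h3 <;> rcases h1 with h1 | h1 <;> rcases h2 with h2 | h2 <;>
          linarith [h3.1, h3.2, h1.1, h1.2, h2.1, h2.2])
  generalize (u : ℝ) = U at *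
  generalize (v : ℝ) = V at *
  have e2 : z2 = U + 2 * z1 - z0 := by linarith
  have e3 : z3 = V + 2 * U + 3 * z1 - 2 * z0 := by linarith
  rcases h0 with ⟨a0, b0⟩ | ⟨a0, b0⟩ <;> rcases h1 with ⟨a1, b1⟩ | ⟨a1, b1⟩ <;>
    rcases h2 with ⟨a2, b2⟩ | ⟨a2, b2⟩ <;> rcases h3 with ⟨a3, b3⟩ | ⟨a3, b3⟩ <;>
    rcases hu' with hU | hU | hU <;> rcases hv' with hV | hV | hV <;>
    first
      | (exfalso; linarith)
      | (refine ⟨0, ?_⟩; rw [fB_I b0, fB_I b1, fB_I b2, fB_I b3, e2, e3, hU, hV]; push_cast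
         apply le_of_eq; ring)
      | (refine ⟨0, ?_⟩; rw [fB_J a0, fB_J a1, fB_J a2, fB_J a3, e2, e3, hU, hV]; push_cast
         apply le_of_eq; ring)
      | (refine ⟨1, ?_⟩; rw [fB_I b0, fB_J a1, fB_I b2, fB_J a3, e2, e3, hU, hV]; push_cast
         apply le_of_eq; ring)
      | (refine ⟨-1, ?_⟩; rw [fB_J a0, fB_I b1, fB_J a2, fB_I b3, e2, e3, hU, hV]; push_cast
         apply le_of_eq; ring)
      | (refine ⟨-1, ?_⟩; rw [fB_J a0, fB_I b1, fB_I b2, fB_J a3]; push_cast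
         nlinarith [sq_nonneg (z0 - 2/3), sq_nonneg (z3 - 2/3)])

/-- digit set -/
def digs (M : ℕ) : Finset ℕ := range (3 * M) ∪ Ico (5 * M) (7 * M)

lemma card_digs (M : ℕ) : (digs M).card = 5 * M := by
  unfold digs
  rw [card_union_of_disjoint]
  · simp; omega
  · rw [disjoint_left]; intro a ha hb; simp at ha hb; omega

def box (M : ℕ) : ℕ → Finset ℕ
  | 0 => {0}
  | n + 1 => ((digs M) ×ˢ (box M n)).image (fun p => p.1 * (9 * M) ^ n + p.2)

lemma box_lt (M : ℕ) (hM : 0 < M) : ∀ n, ∀ x ∈ box M n, x < (9 * M) ^ n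
  | 0 => by simp [box]
  | n + 1 => by
    intro x hx
    simp only [box, mem_image, mem_product] at hx
    obtain ⟨⟨a, r⟩, ⟨ha, hr⟩, rfl⟩ := hx
    have h1 := box_lt M hM n r hr
    have h2 : a + 1 ≤ 9 * M := by
      simp [digs] at ha; omega
    calc a * (9 * M) ^ n + r < a * (9 * M) ^ n + (9 * M) ^ n := by simpa using h1
      _ = (a + 1) * (9 * M) ^ n := by ring
      _ ≤ (9 * M) * (9 * M) ^ n := Nat.mul_le_mul_right _ h2
      _ = (9 * M) ^ (n + 1) := by ring

lemma card_box (M : ℕ) (hM : 0 < M) : ∀ n, (box M n).card = (5 * M) ^ n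
  | 0 => by simp [box]
  | n + 1 => by
    rw [box, card_image_of_injOn, card_product, card_digs, card_box M hM n, pow_succ]
    · ring
    · rintro ⟨a, r⟩ h1 ⟨a', r'⟩ h2 h
      simp only [coe_product, Set.mem_prod, mem_coe] at h1 h2
      have l1 := box_lt M hM n r h1.2
      have l2 := box_lt M hM n r' h2.2
      simp only at h
      have hpos : 0 < (9 * M) ^ n := by positivity
      have e1 : (a * (9 * M) ^ n + r) / (9 * M) ^ n = a := by
        rw [mul_comm, Nat.mul_add_div hpos, Nat.div_eq_of_lt l1]; simp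
      have e2 : (a' * (9 * M) ^ n + r') / (9 * M) ^ n = a' := by
        rw [mul_comm, Nat.mul_add_div hpos, Nat.div_eq_of_lt l2]; simp
      have ea : a = a' := by rw [← e1, ← e2, h]
      subst ea
      simp at h
      simp [h]

noncomputable def zc (M i x : ℕ) : ℝ := Int.fract ((x : ℝ) / (9 * M : ℝ) ^ (i + 1))

lemma box_inS (M : ℕ) (hM : 0 < M) : ∀ n, ∀ x ∈ box M n, ∀ i < n, inS (zc M i x)
  | 0 => by simp
  | n + 1 => by
    intro x hx i hi
    simp only [box, mem_image, mem_product] at hx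
    obtain ⟨⟨a, r⟩, ⟨ha, hr⟩, rfl⟩ := hx
    have hMr : (0 : ℝ) < M := by exact_mod_cast hM
    have hb : (0 : ℝ) < 9 * M := by positivity
    rcases Nat.lt_succ_iff_lt_or_eq.mp hi with hi | hi
    · have := box_inS M hM n r hr i hi
      have e : zc M i (a * (9 * M) ^ n + r) = zc M i r := by
        unfold zc
        obtain ⟨j, rfl⟩ := Nat.exists_eq_add_of_lt hi
        have : (((a * (9 * M) ^ (i + j + 1) + r : ℕ) : ℝ)) / (9 * M : ℝ) ^ (i + 1)
            = ((a * (9 * M) ^ j : ℕ) : ℝ) + (r : ℝ) / (9 * M : ℝ) ^ (i + 1) := by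
          push_cast; field_simp; ring
        rw [this, Int.fract_natCast_add]
      simpa [e] using this
    · subst hi
      have l1 := box_lt M hM i r hr
      have l1' : (r : ℝ) < (9 * M : ℝ) ^ i := by exact_mod_cast l1
      have hp : (0 : ℝ) < (9 * M : ℝ) ^ i := by positivity
      set t : ℝ := (r : ℝ) / (9 * M : ℝ) ^ i with ht
      have t0 : 0 ≤ t := by positivity
      have t1 : t < 1 := by rw [ht, div_lt_one hp]; exact l1'
      have e : (((a * (9 * M) ^ i + r : ℕ) : ℝ)) / (9 * M : ℝ) ^ (i + 1) = (a + t) / (9 * M) := by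
        rw [ht]; push_cast; field_simp; ring
      have hS : inS ((a + t) / (9 * M : ℝ)) := by
        simp only [digs, mem_union, mem_range, mem_Ico] at ha
        rcases ha with ha | ⟨ha, ha'⟩
        · left
          have : (a : ℝ) + 1 ≤ 3 * M := by exact_mod_cast ha
          refine ⟨by positivity, ?_⟩
          rw [div_lt_iff₀ hb]; linarith
        · right
          have h5 : (5 : ℝ) * M ≤ a := by exact_mod_cast ha
          have h7 : (a : ℝ) + 1 ≤ 7 * M := by exact_mod_cast ha'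
          constructor
          · rw [le_div_iff₀ hb]; linarith
          · rw [div_lt_iff₀ hb]; linarith
      unfold zc
      simp only
      rw [e, Int.fract_eq_self.mpr]
      · exact hS
      · rcases hS with h | h <;> constructor <;> linarith [h.1, h.2]

/-- some scale sees the common difference -/
lemma exists_scale (b : ℕ) (hb : 0 < b) : ∀ n D : ℕ, 0 < D → D < b ^ n →
    ∃ i < n, ∀ e : ℤ, 1 / (b : ℝ) ^ 2 ≤ ((D : ℝ) / (b : ℝ) ^ (i + 1) - e) ^ 2
  | 0, D => by intro h1 h2; simp at h2; omega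
  | n + 1, D => by
    intro h1 h2
    have hbr : (0 : ℝ) < b := by exact_mod_cast hb
    by_cases hd : b ∣ D
    · obtain ⟨D', rfl⟩ := hd
      have h1' : 0 < D' := Nat.pos_of_mul_pos_left h1
      have h2' : D' < b ^ n := by
        rw [pow_succ, mul_comm] at h2
        exact lt_of_mul_lt_mul_right h2 (Nat.zero_le _)
      obtain ⟨i, hi, h⟩ := exists_scale b hb n D' h1' h2'
      refine ⟨i + 1, by omega, fun e => ?_⟩
      have : ((b * D' : ℕ) : ℝ) / (b : ℝ) ^ (i + 1 + 1) = (D' : ℝ) / (b : ℝ) ^ (i + 1) := by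
        push_cast; field_simp; ring
      rw [this]; exact h e
    · refine ⟨0, by omega, fun e => ?_⟩
      have hne : (D : ℤ) - e * b ≠ 0 := by
        intro h
        apply hd
        have : (b : ℤ) ∣ (D : ℤ) := ⟨e, by linarith⟩
        exact_mod_cast this
      have h1 : (1 : ℤ) ≤ ((D : ℤ) - e * b) ^ 2 := by
        have := sq_pos_of_ne_zero hne
        omega
      have h1' : (1 : ℝ) ≤ ((D : ℝ) - e * b) ^ 2 := by exact_mod_cast h1
      have : ((D : ℝ) / (b : ℝ) ^ (0 + 1) - e) ^ 2 = ((D : ℝ) - e * b) ^ 2 / (b : ℝ) ^ 2 := by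
        field_simp; ring
      rw [this]
      gcongr

noncomputable def FF (M n x : ℕ) : ℝ := ∑ i ∈ range n, fB (zc M i x)

lemma second_diff (M i a d : ℕ) :
    ∃ u : ℤ, zc M i a - 2 * zc M i (a + d) + zc M i (a + 2 * d) = u := by
  unfold zc
  set B : ℝ := (9 * M : ℝ) ^ (i + 1)
  refine ⟨-⌊(a : ℝ) / B⌋ + 2 * ⌊((a + d : ℕ) : ℝ) / B⌋ - ⌊((a + 2 * d : ℕ) : ℝ) / B⌋, ?_⟩
  simp only [Int.fract]
  push_cast
  ring

lemma gap (M n a d : ℕ) (hM : 0 < M) (hd : 0 < d) (h0 : a ∈ box M n) (h1 : a + d ∈ box M n)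
    (h2 : a + 2 * d ∈ box M n) (h3 : a + 3 * d ∈ box M n) :
    1 / (9 * M : ℝ) ^ 2 ≤ FF M n a + FF M n (a + 3 * d) - FF M n (a + d) - FF M n (a + 2 * d) := by
  have hlt := box_lt M hM n _ h3
  obtain ⟨i0, hi0, hs⟩ := exists_scale (9 * M) (by omega) n (2 * d) (by omega) (by omega)
  have term : ∀ i < n, ∃ e : ℤ, (((2 * d : ℕ) : ℝ) / ((9 * M : ℕ) : ℝ) ^ (i + 1) - e) ^ 2 ≤
      fB (zc M i a) + fB (zc M i (a + 3 * d)) - fB (zc M i (a + d)) - fB (zc M i (a + 2 * d)) := by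
    intro i hi
    obtain ⟨u, hu⟩ := second_diff M i a d
    obtain ⟨v, hv⟩ := second_diff M i (a + d) d
    have e1 : a + d + d = a + 2 * d := by ring
    have e2 : a + d + 2 * d = a + 3 * d := by ring
    rw [e1, e2] at hv
    obtain ⟨e, he⟩ := key4 (box_inS M hM n _ h0 i hi) (box_inS M hM n _ h1 i hi)
      (box_inS M hM n _ h2 i hi) (box_inS M hM n _ h3 i hi) u v hu hv
    refine ⟨e + 2 * ⌊((a + d : ℕ) : ℝ) / (9 * M : ℝ) ^ (i + 1)⌋
      - 2 * ⌊(a : ℝ) / (9 * M : ℝ) ^ (i + 1)⌋, le_trans (le_of_eq ?_) he⟩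
    congr 1
    simp only [zc, Int.fract]
    push_cast
    ring
  have hsum : FF M n a + FF M n (a + 3 * d) - FF M n (a + d) - FF M n (a + 2 * d) =
      ∑ i ∈ range n, (fB (zc M i a) + fB (zc M i (a + 3 * d)) - fB (zc M i (a + d))
        - fB (zc M i (a + 2 * d))) := by
    simp only [FF, sum_sub_distrib, sum_add_distrib]
  rw [hsum]
  obtain ⟨e, he⟩ := term i0 hi0
  have := hs e
  push_cast at this he
  refine le_trans (le_trans this he) ?_
  refine single_le_sum (f := fun i => fB (zc M i a) + fB (zc M i (a + 3 * d)) - fB (zc M i (a + d))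
        - fB (zc M i (a + 2 * d))) (fun i hi => ?_) (mem_range.mpr hi0)
  obtain ⟨e, he⟩ := term i (mem_range.mp hi)
  exact le_trans (sq_nonneg _) he

theorem finite4 (M n : ℕ) (hM : 0 < M) :
    ∃ A : Finset ℕ, A ⊆ range ((9 * M) ^ n) ∧
      (∀ a d : ℕ, 0 < d → ¬ (a ∈ A ∧ a + d ∈ A ∧ a + 2 * d ∈ A ∧ a + 3 * d ∈ A)) ∧
      (5 * M) ^ n ≤ (4 * n * (9 * M) ^ 2 + 1) * A.card := by
  classical
  have hMr : (0 : ℝ) < M := by exact_mod_cast hM
  set K := 4 * n * (9 * M) ^ 2 + 1 with hK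
  let s : ℕ → ℕ := fun x => ⌊2 * (9 * M : ℝ) ^ 2 * FF M n x⌋₊
  have hF0 : ∀ x, 0 ≤ FF M n x := fun x => sum_nonneg fun i _ => fB_nonneg _
  have maps : ∀ x ∈ box M n, s x ∈ range K := by
    intro x hx
    have : FF M n x ≤ 2 * n := by
      calc FF M n x ≤ ∑ _i ∈ range n, (2 : ℝ) :=
            sum_le_sum fun i hi => fB_le (box_inS M hM n x hx i (mem_range.mp hi))
        _ = 2 * n := by simp [mul_comm]
    rw [mem_range, hK, Nat.lt_succ_iff]
    apply Nat.floor_le_of_le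
    push_cast
    have : 2 * (9 * M : ℝ) ^ 2 * FF M n x ≤ 2 * (9 * M : ℝ) ^ 2 * (2 * n) := by gcongr
    linarith
  obtain ⟨j, -, hj⟩ : ∃ j ∈ range K, (box M n).card ≤ K * ((box M n).filter (fun x => s x = j)).card := by
    by_contra hcon
    push Not at hcon
    have h1 := card_eq_sum_card_fiberwise maps
    have h2 : ∑ j ∈ range K, K * ((box M n).filter (fun x => s x = j)).card
        < ∑ _j ∈ range K, (box M n).card :=
      sum_lt_sum_of_nonempty (by simp [hK]) hcon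
    rw [← mul_sum, ← h1] at h2
    simp at h2
  refine ⟨(box M n).filter (fun x => s x = j), ?_, ?_, ?_⟩
  · intro x hx
    exact mem_range.mpr (box_lt M hM n x (mem_filter.mp hx).1)
  · rintro a d hd ⟨h0, h1, h2, h3⟩
    rw [mem_filter] at h0 h1 h2 h3
    have g := gap M n a d hM hd h0.1 h1.1 h2.1 h3.1
    have hb : (0 : ℝ) < (9 * M : ℝ) ^ 2 := by positivity
    have lo : ∀ x, s x = j → (j : ℝ) ≤ 2 * (9 * M : ℝ) ^ 2 * FF M n x := by
      intro x hx; rw [← hx]; exact Nat.floor_le (by have := hF0 x; positivity)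
    have hi : ∀ x, s x = j → 2 * (9 * M : ℝ) ^ 2 * FF M n x < j + 1 := by
      intro x hx; rw [← hx]; exact Nat.lt_floor_add_one _
    have := lo _ h1.2
    have := lo _ h2.2
    have := hi _ h0.2
    have := hi _ h3.2
    rw [div_le_iff₀ hb] at g
    nlinarith
  · rw [← card_box M hM n]; exact hj

end Vale.Agent.P057
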